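import Vale.Agent.P086L.Defs
import Vale.Agent.P086.H677.Classify

/-!
The concrete group von Neumann algebra: trace, factors, isomorphisms.
-/

set_option linter.all false

namespace Vale.Agent.P086L

open Vale.Agent.P086

variable {G K : Type} [Group G] [Group K]

theorem isLam_iff (g : G) (T : B (L2 G)) : IsLam g T ↔ T = lam g := by
  constructor
  · intro h
    ext1 ξ
    exact lp.ext (funext fun k => h ξ k)
  · rintro rfl
    exact fun ξ h => rfl

theorem lams_eq : lams G = Set.range (lam (G := G)) := by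
  ext T
  simp only [lams, Set.mem_setOf_eq, Set.mem_range, isLam_iff, eq_comm]

theorem L_eq : L G = LG G := by
  rw [L, lams_eq]
  rfl

theorem tau_eq (x : BH G) : tau G x = H677.tau x := inner_dl (1 : G) (x (dl 1))

theorem coe_L : IsBicommutant (lams G) (L G) := by
  unfold IsBicommutant
  have h1 : star (lams G) = lams G := by
    rw [lams_eq]
    ext T
    rw [Set.mem_star]
    constructor
    · rintro ⟨g, hg⟩
      exact ⟨g⁻¹, by rw [← star_lam, hg, star_star]⟩
    · rintro ⟨g, rfl⟩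
      exact ⟨g⁻¹, (star_lam g).symm⟩
  have h2 : (StarSubalgebra.centralizer ℂ (lams G) : Set (L2 G →L[ℂ] L2 G)) =
      Set.centralizer (lams G) := by
    rw [StarSubalgebra.coe_centralizer, h1, Set.union_self]
  have h3 : star (StarSubalgebra.centralizer ℂ (lams G) : Set (L2 G →L[ℂ] L2 G)) =
      (StarSubalgebra.centralizer ℂ (lams G) : Set (L2 G →L[ℂ] L2 G)) := by
    ext T
    rw [Set.mem_star]
    exact star_mem_iff
  rw [L, bicomm, StarSubalgebra.coe_centralizer, h3, Set.union_self, h2]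

/-- the vector `δ_e` is separating -/
theorem sep {T : BH G} (hT : T ∈ LG G) (h : T (dl 1) = 0) : T = 0 := by
  have h1 : ∀ g : G, T (dl g) = 0 := fun g => by rw [LG_apply_dl hT, h, map_zero]
  refine ContinuousLinearMap.ext_on (s := Set.range (H677.stdB G))
    (Submodule.dense_iff_topologicalClosure_eq_top.2 (H677.stdB G).dense_span) ?_
  rintro _ ⟨g, rfl⟩
  have h2 : H677.stdB G g = dl g := FF.repr_basis (H677.stdB G) g
  rw [h2, h1]
  rfl

theorem basic (G : Type) [Group G] :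
    (∀ g : G, ∃! T, IsLam g T) ∧ IsBicommutant (lams G) (L G) ∧ IsFaithfulTrace (L G) (tau G) := by
  refine ⟨fun g => ⟨lam g, (isLam_iff g _).2 rfl, fun T hT => (isLam_iff g T).1 hT⟩, coe_L, ?_,
    fun x hx y hy => ?_, fun x hx h => ?_⟩
  · show inner ℂ (dl (1 : G)) (dl (1 : G)) = 1
    rw [inner_self_eq_norm_sq_to_K, norm_dl]
    simp
  · rw [L_eq] at hx hy
    rw [tau_eq, tau_eq, H677.tau_comm hx hy]
  · rw [L_eq] at hx
    rw [tau_eq, H677.tau_star_mul, inner_self_eq_zero] at h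
    exact sep hx h

/-- a spatial isomorphism as a trace preserving star algebra isomorphism -/
theorem iso_of_sp (h : SpIso G K) : TraceIso (L G) (tau G) (L K) (tau K) := by
  obtain ⟨W, h1, h2⟩ := h
  rw [← L_eq, ← L_eq] at h2
  refine ⟨{ toFun := fun x => ⟨W.conjStarAlgEquiv x, (h2 x).1 x.2⟩
            invFun := fun y => ⟨W.conjStarAlgEquiv.symm y, (h2 _).2 (by
              rw [StarAlgEquiv.apply_symm_apply]; exact y.2)⟩
            left_inv := fun x => Subtype.ext (StarAlgEquiv.symm_apply_apply _ _)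
            right_inv := fun y => Subtype.ext (StarAlgEquiv.apply_symm_apply _ _)
            map_mul' := fun x y => Subtype.ext (map_mul W.conjStarAlgEquiv _ _)
            map_add' := fun x y => Subtype.ext (map_add W.conjStarAlgEquiv _ _)
            map_star' := fun x => Subtype.ext (map_star W.conjStarAlgEquiv _)
            map_smul' := fun c x => Subtype.ext (map_smul W.conjStarAlgEquiv _ _) }, fun x => ?_⟩
  show inner ℂ (dl (1 : K)) (W.conjStarAlgEquiv x (dl 1)) = inner ℂ (dl (1 : G)) (x.1 (dl 1))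
  rw [LinearIsometryEquiv.conjStarAlgEquiv_apply_apply, ← h1,
    LinearIsometryEquiv.symm_apply_apply, LinearIsometryEquiv.inner_map_map]

/-- the centre of `L(F_∞)` is trivial -/
theorem factor_nat {T : BH (FreeGroup ℕ)} (hT : T ∈ LG (FreeGroup ℕ))
    (hc : ∀ y ∈ LG (FreeGroup ℕ), T * y = y * T) : ∃ c : ℂ, T = c • 1 := by
  classical
  set ξ := T (dl 1) with hξ
  have h1 : ∀ x g : FreeGroup ℕ, ξ (x * g * x⁻¹) = ξ g := by
    intro x g
    have h2 : T (lam x (dl 1)) = lam x ξ :=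
      congrArg (fun S : BH (FreeGroup ℕ) => S (dl 1)) (hc _ (lam_mem_LG x))
    rw [lam_dl, mul_one, LG_apply_dl hT] at h2
    have h3 := congrArg (fun η : Ell2 (FreeGroup ℕ) => η (x * g)) h2
    simpa only [rho_apply, lam_apply, inv_mul_cancel_left] using h3
  have h4 : ∀ g : FreeGroup ℕ, g ≠ 1 → ξ g = 0 := by
    intro g hg
    by_contra hne
    have hs : Summable fun h : FreeGroup ℕ => ‖ξ h‖ ^ (2 : ENNReal).toReal :=
      (lp.memℓp ξ).summable (by norm_num)
    have hpos : 0 < ‖ξ g‖ ^ (2 : ENNReal).toReal := Real.rpow_pos_of_pos (norm_pos_iff.2 hne) _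
    have hfin : {h : FreeGroup ℕ | ‖ξ g‖ ^ (2 : ENNReal).toReal ≤
        ‖ξ h‖ ^ (2 : ENNReal).toReal}.Finite := by
      have := hs.tendsto_cofinite_zero.eventually (gt_mem_nhds hpos)
      rw [Filter.eventually_cofinite] at this
      simpa only [not_lt] using this
    set S : Set ℕ := {x | ∀ b ∈ (@FreeGroup.toWord ℕ (Classical.decEq ℕ) g), b.1 ≠ x} with hS
    have hSi : S.Infinite := by
      refine Set.infinite_of_finite_compl ?_
      refine ((List.finite_toSet (@FreeGroup.toWord ℕ (Classical.decEq ℕ) g)).image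
        Prod.fst).subset fun x hx => ?_
      simp only [hS, Set.mem_compl_iff, Set.mem_setOf_eq, not_forall, not_not] at hx
      obtain ⟨b, hb, e⟩ := hx
      exact ⟨b, hb, e⟩
    have hm : ∀ x ∈ S, FreeGroup.of x * g * (FreeGroup.of x)⁻¹ ∈ H677.Dx x := by
      intro x hx
      have := H677.conj_mem (w := 1) hg hx (by simp [H677.Dx])
      rwa [mul_one] at this
    refine hSi (Set.Finite.of_injOn (f := fun x => FreeGroup.of x * g * (FreeGroup.of x)⁻¹)
      (fun x _ => ?_) (fun x hx y hy e => ?_) hfin)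
    · simp only [Set.mem_setOf_eq, h1, le_refl]
    · have e' : FreeGroup.of x * g * (FreeGroup.of x)⁻¹ = FreeGroup.of y * g * (FreeGroup.of y)⁻¹ := e
      exact H677.Dx_disj (hm x hx) (e' ▸ hm y hy)
  refine ⟨ξ 1, sub_eq_zero.1 (sep (sub_mem hT ((LG _).smul_mem (one_mem _) _)) ?_)⟩
  refine lp.ext (funext fun g => ?_)
  show ξ g - ξ 1 * (dl (1 : FreeGroup ℕ) : Ell2 (FreeGroup ℕ)) g = 0
  rw [dl_apply]
  by_cases hg : g = 1
  · simp [hg]
  · simp [hg, h4 g hg, Ne.symm hg]

theorem not_fin [Infinite G] : InfDim (L G) := by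
  intro h
  let ev : L G →ₗ[ℂ] L2 G :=
    { toFun := fun x => x.1 (dl 1), map_add' := fun _ _ => rfl, map_smul' := fun _ _ => rfl }
  have hm : ∀ g : G, lam g ∈ L G := fun g => L_eq (G := G) ▸ lam_mem_LG g
  have h1 : LinearIndependent ℂ fun g : G => (⟨lam g, hm g⟩ : L G) := by
    refine LinearIndependent.of_comp ev ?_
    have h2 : (ev ∘ fun g : G => (⟨lam g, hm g⟩ : L G)) = H677.stdB G := by
      funext g
      have h3 : H677.stdB G g = dl g := FF.repr_basis (H677.stdB G) g
      rw [h3]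
      show lam g (dl 1) = dl g
      rw [lam_dl, mul_one]
    rw [h2]
    exact (H677.stdB G).orthonormal.linearIndependent
  have := h1.finite
  exact not_finite G

theorem nontriv {n : ℕ∞} (hn : 2 ≤ n) : Nontrivial {k : ℕ // (k : ℕ∞) < n} :=
  ⟨⟨0, lt_of_lt_of_le (by norm_num) hn⟩, ⟨1, lt_of_lt_of_le (by norm_num) hn⟩, by simp⟩

theorem iso {m n : ℕ∞} (hm : 2 ≤ m) (hn : 2 ≤ n) :
    TraceIso (L (F m)) (tau (F m)) (L (F n)) (tau (F n)) :=
  have := nontriv hm
  have := nontriv hn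
  iso_of_sp (spIso_all _ _)

theorem factor {n : ℕ∞} (hn : 2 ≤ n) : TrivialCentre (L (F n)) ∧ InfDim (L (F n)) := by
  have := nontriv hn
  have : Infinite (F n) := by
    obtain ⟨a⟩ : Nonempty {k : ℕ // (k : ℕ∞) < n} := inferInstance
    refine Infinite.of_surjective (FreeGroup.lift fun _ => Multiplicative.ofAdd (1 : ℤ)) fun z => ?_
    refine ⟨FreeGroup.of a ^ z.toAdd, ?_⟩
    rw [map_zpow, FreeGroup.lift_apply_of, ← ofAdd_zsmul, smul_eq_mul, mul_one, ofAdd_toAdd]
  refine ⟨fun x hx hc => ?_, not_fin⟩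
  obtain ⟨θ, -⟩ := iso_of_sp (spIso_all {k : ℕ // (k : ℕ∞) < n} ℕ)
  obtain ⟨c, e⟩ := factor_nat (T := (θ ⟨x, hx⟩).1) (L_eq (G := FreeGroup ℕ) ▸ (θ ⟨x, hx⟩).2)
    fun y hy => by
      have hy' : y ∈ L (FreeGroup ℕ) := L_eq (G := FreeGroup ℕ) ▸ hy
      obtain ⟨z, hz⟩ := θ.surjective ⟨y, hy'⟩
      have h1 : (⟨x, hx⟩ : L (F n)) * z = z * ⟨x, hx⟩ := Subtype.ext (hc z.1 z.2)
      have h2 := congrArg θ h1
      have hz' : θ z = ⟨y, hy'⟩ := hz
      rw [map_mul, map_mul, hz'] at h2
      exact congrArg Subtype.val h2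
  have h3 : θ ⟨x, hx⟩ = θ (c • 1) := by
    rw [map_smul, map_one]
    exact Subtype.ext e
  exact ⟨c, congrArg Subtype.val (θ.injective h3)⟩

end Vale.Agent.P086L
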