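import Mathlib.Analysis.InnerProductSpace.Adjoint
import Mathlib.Analysis.InnerProductSpace.l2Space
import Mathlib.Algebra.Star.Subalgebra
import Mathlib.GroupTheory.FreeGroup.Basic
import Mathlib.Data.ENat.Basic

/-!
The group von Neumann algebra and the free groups, as in the problem text.
-/

namespace Vale.Agent.P086L

/-- There is a star algebra isomorphism of the star subalgebra `M` of `A` onto the star subalgebra
`N` of `A'` which carries `τ` to `σ`. -/
def SubIso {A A' : Type} [Semiring A] [StarRing A] [Algebra ℂ A] [StarModule ℂ A]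
    [Semiring A'] [StarRing A'] [Algebra ℂ A'] [StarModule ℂ A']
    (M : StarSubalgebra ℂ A) (τ : A → ℂ) (N : StarSubalgebra ℂ A') (σ : A' → ℂ) : Prop :=
  ∃ θ : M ≃⋆ₐ[ℂ] N, ∀ x : M, σ (θ x) = τ x

/-! ### Algebras of operators on a Hilbert space -/

/-- The bounded operators `B(E)`. -/
abbrev B (E : Type) [NormedAddCommGroup E] [InnerProductSpace ℂ E] : Type := E →L[ℂ] E

/-- The star subalgebras of `B(E)`. -/
abbrev Alg (E : Type) [NormedAddCommGroup E] [InnerProductSpace ℂ E] [CompleteSpace E] : Type :=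
  StarSubalgebra ℂ (B E)

section
variable {E E' : Type} [NormedAddCommGroup E] [InnerProductSpace ℂ E] [CompleteSpace E]
  [NormedAddCommGroup E'] [InnerProductSpace ℂ E'] [CompleteSpace E']

/-- `M` is the double commutant `S''`. -/
def IsBicommutant (S : Set (B E)) (M : Alg E) : Prop :=
  (M : Set (B E)) = Set.centralizer (Set.centralizer S)

/-- The double commutant of `S ∪ S*`, as a star subalgebra. -/
noncomputable def bicomm (S : Set (B E)) : Alg E :=
  StarSubalgebra.centralizer ℂ (StarSubalgebra.centralizer ℂ S : Set (B E))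

/-- The functional `x ↦ ⟨x ξ, ξ⟩` (the inner product of Mathlib is linear in the second
variable). -/
noncomputable def vec (ξ : E) (x : B E) : ℂ := inner ℂ ξ (x ξ)

/-- `τ` is normalised, tracial and faithful on `M`. -/
def IsFaithfulTrace (M : Alg E) (τ : B E → ℂ) : Prop :=
  τ 1 = 1 ∧ (∀ x ∈ M, ∀ y ∈ M, τ (x * y) = τ (y * x)) ∧ ∀ x ∈ M, τ (star x * x) = 0 → x = 0

/-- The centre of `M` consists of scalars. -/
def TrivialCentre (M : Alg E) : Prop :=
  ∀ x ∈ M, (∀ y ∈ M, x * y = y * x) → ∃ c : ℂ, x = c • 1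

/-- `M` is infinite-dimensional. -/
def InfDim (M : Alg E) : Prop := ¬ FiniteDimensional ℂ M

/-- `SubIso` for algebras of operators: there is a star algebra isomorphism of `M` onto `N` which
carries `τ` to `σ`. -/
def TraceIso (M : Alg E) (τ : B E → ℂ) (N : Alg E') (σ : B E' → ℂ) : Prop := SubIso M τ N σ

end

/-! ### The group von Neumann algebra -/

/-- The Hilbert space `ℓ²(G)`. -/
abbrev L2 (G : Type) : Type := lp (fun _ : G => ℂ) 2

/-- `T` is the left translation operator `λ(g)`: `(λ(g) ξ)(h) = ξ(g⁻¹ h)`. -/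
def IsLam {G : Type} [Group G] (g : G) (T : B (L2 G)) : Prop :=
  ∀ (ξ : L2 G) (h : G), T ξ h = ξ (g⁻¹ * h)

/-- The set `λ(G)` of all left translation operators. -/
def lams (G : Type) [Group G] : Set (B (L2 G)) := {T | ∃ g : G, IsLam g T}

/-- The group von Neumann algebra `L(G) = λ(G)''`, as a star subalgebra of `B(ℓ²(G))`. -/
noncomputable def L (G : Type) [Group G] : Alg (L2 G) := bicomm (lams G)

open Classical in
/-- The vector `δ_e`. -/
noncomputable def delta (G : Type) [Group G] : L2 G := lp.single 2 (1 : G) (1 : ℂ)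

/-- The trace `τ(x) = ⟨x δ_e, δ_e⟩`. -/
noncomputable def tau (G : Type) [Group G] : B (L2 G) → ℂ := vec (delta G)

/-- The free group `F_n` on `n` generators, `n ≤ ∞`: the generators are the natural numbers
below `n`. -/
abbrev F (n : ℕ∞) : Type := FreeGroup {k : ℕ // (k : ℕ∞) < n}

end Vale.Agent.P086L
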